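import Vale.Agent.P223W25.Fund

/-! The local homology of `ℝ^n` in degree `n` is generated freely by a small simplex. -/

noncomputable section

namespace Vale.Agent.N223Y

open Set Vale.Agent.P223W25 Vale.Agent.P246.T Vale.Agent.P223.J

variable {M : Type} [TopologicalSpace M]

/-- relative cycles -/
def RC (U : Set M) : (k : ℕ) → C ℤ k M → Prop
  | 0, _ => True
  | k + 1, c => bR k c ∈ Cn ℤ U k

/-- `s` is a free generator of the homology of `(M, U)` in degree `k` -/
def PG (U : Set M) (k : ℕ) (s : C ℤ k M) : Prop :=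
  (∀ c, RC U k c → ∃ a : ℤ, Nl U k (c - a • s)) ∧ ∀ a : ℤ, Nl U k (a • s) → a = 0

theorem PG.neg {U : Set M} {k : ℕ} {s : C ℤ k M} (h : PG U k s) : PG U k (-s) := by
  refine ⟨fun c hc => ?_, fun a ha => ?_⟩
  · obtain ⟨a, ha⟩ := h.1 c hc
    exact ⟨-a, by rwa [neg_smul_neg]⟩
  · rw [smul_neg, ← neg_smul] at ha
    exact neg_eq_zero.1 (h.2 _ ha)

theorem dl_eq (s t : Dl 1) : s = t :=
  Subtype.ext (funext fun i => by
    rw [Subsingleton.elim i 0]
    exact (FM.dl_one s).trans (FM.dl_one t).symm)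

theorem dec {U V : Set M} (hU : IsOpen U) (hV : IsOpen V) : ∀ {k : ℕ} {c : C ℤ (k + 1) M},
    bR k c ∈ Cn ℤ (U ∪ V) k → ∃ d ∈ Cn ℤ (U ∪ V) (k + 1), ∃ u ∈ Cn ℤ U k, ∃ v ∈ Cn ℤ V k,
      bR k c = bR k d + u + v ∧ RC (U ∩ V) k u
  | 0, c, hc => by
    have : bR 0 c ∈ Cn ℤ U 0 ⊔ Cn ℤ V 0 := by
      refine ind (P := fun e => e ∈ Cn ℤ U 0 ⊔ Cn ℤ V 0) (zero_mem _) (fun _ _ => add_mem)
        (fun r _ h => Submodule.smul_mem _ r h) (fun σ hσ => ?_) hc
      rcases hσ stdSimplex.barycenter with h | h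
      · exact Submodule.mem_sup_left (cast_mem (SD.single_mem (fun x => dl_eq _ x ▸ h) 1))
      · exact Submodule.mem_sup_right (cast_mem (SD.single_mem (fun x => dl_eq _ x ▸ h) 1))
    obtain ⟨u, hu, v, hv, e⟩ := Submodule.mem_sup.1 this
    exact ⟨0, zero_mem _, u, hu, v, hv, by rw [map_zero, zero_add u, e], trivial⟩
  | k + 1, c, hc => by
    obtain ⟨d, hd, u, hu, v, hv, e⟩ := split hU hV hc (zero_mem _) (zero_mem _) (by
      rw [bR_bR, add_zero])
    have e0 := congrArg (bR k) e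
    rw [bR_bR, map_add, map_add, bR_bR, zero_add] at e0
    exact ⟨d, hd, u, hu, v, hv, e, cn_inter (bR_mem hu) (by
      rw [eq_neg_of_add_eq_zero_left e0.symm]
      exact neg_mem (bR_mem hv))⟩

theorem pg_step {U V : Set M} (hU : IsOpen U) (hV : IsOpen V) {k : ℕ} (h1 : HZ ℤ U k)
    (h2 : HZ ℤ V k) {s : C ℤ (k + 1) M} {s' w : C ℤ k M} (hs : bR k s = s' + w)
    (hs' : s' ∈ Cn ℤ U k) (hw : w ∈ Cn ℤ V k) (h : PG (U ∩ V) k s') : PG (U ∪ V) (k + 1) s := by
  refine ⟨fun c hc => ?_, fun m ⟨b, hb⟩ => ?_⟩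
  · obtain ⟨d, hd, u, hu, v, hv, e, hr⟩ := dec hU hV hc
    obtain ⟨m, a, ha⟩ := h.1 u hr
    have k1 := h1 a (by
      have := sub_mem (sub_mem hu (Submodule.smul_mem _ m hs')) (cn_mono inter_subset_left ha)
      rwa [sub_sub_cancel] at this)
    have k2 := h2 (c - d - m • s - a) (by
      have := add_mem (sub_mem hv (Submodule.smul_mem _ m hw)) (cn_mono inter_subset_right ha)
      rw [map_sub, map_sub, map_sub, map_smul, e, hs, smul_add]
      convert this using 1
      abel)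
    have := ((k1.mono subset_union_left).add (k2.mono subset_union_right)).add (Nl.of_mem hd)
    refine ⟨m, ?_⟩
    convert this using 1
    abel
  · have e0 : bR k (m • s - bR (k + 1) b) = m • s' + m • w := by
      rw [map_sub, bR_bR, sub_zero, map_smul, hs, smul_add]
    obtain ⟨d, -, u, hu, v, hv, e⟩ := split hU hV hb (Submodule.smul_mem _ m hs')
      (Submodule.smul_mem _ m hw) e0
    rw [e, map_add, map_add, bR_bR, zero_add] at e0
    refine h.2 m ⟨u, cn_inter (sub_mem (Submodule.smul_mem _ m hs') (bR_mem hu)) ?_⟩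
    have := sub_mem (bR_mem hv) (Submodule.smul_mem _ m hw)
    convert this using 1
    rw [sub_eq_sub_iff_add_eq_add, ← e0, add_comm]

variable {n : ℕ}

theorem pg_base (σ : C(Dl 1, Fin n → ℝ)) : PG (∅ : Set (Fin n → ℝ)) 0 (Finsupp.single σ 1) := by
  obtain ⟨y, rfl⟩ : ∃ y, σ = ContinuousMap.const _ y :=
    ⟨σ stdSimplex.barycenter, ContinuousMap.ext fun t => congrArg σ (dl_eq _ _)⟩
  refine ⟨fun c _ => ⟨FM.wt 0 c, -FM.pr PR.op (lineH y) 0 c, ?_⟩, fun a ⟨b, hb⟩ => ?_⟩
  · rw [map_neg, bR_int, FM.bd_pr_zero PR.op (lineH y) (ContinuousMap.id _)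
      (ContinuousMap.const _ y) (fun z => by simp [lineH]) (fun z => by simp [lineH]), push_id,
      FM.push_const, ksx]
    convert zero_mem (Cn ℤ (∅ : Set (Fin n → ℝ)) 0) using 1
    abel
  · have := congrArg (FM.wt 0) (sub_eq_zero.1 (cn_empty hb))
    rwa [bR_int, FM.wt_bd, map_smul, FM.wt_single, smul_eq_mul, mul_one] at this

theorem pg_Uj (x : Fin n → ℝ) {ε β : ℝ} (hε : 0 < ε) (hβ : 0 < β) (hn : n * β < 1) :
    ∀ k j, j + k = n → ∀ σ : C(Dl (k + 1), Fin n → ℝ),
      (∀ t (i : Fin n) (a : Fin (k + 1)), (i : ℕ) + 1 = j + a → j ≤ i →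
        σ t i = x i + ε * (t a - β)) → PG (Uj x j) k (Finsupp.single σ 1) := by
  intro k
  induction k with
  | zero =>
    intro j hj σ _
    have : Uj x j = ∅ := eq_empty_of_forall_notMem fun y ⟨i, hi, _⟩ => by
      have := i.2
      omega
    rw [this]
    exact pg_base σ
  | succ k ih =>
    intro j hj σ hσ
    let J : Fin n := ⟨j, by omega⟩
    have ho : ∀ s : ℝ, IsOpen (Uj x (J + 1) ∪ {y | 0 < s * (y J - x J)}) := fun s =>
      (isOpen_Uj _ _).union (isOpen_lt continuous_const (by fun_prop))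
    have e1 : (Uj x (J + 1) ∪ {y | 0 < -1 * (y J - x J)}) ∩
        (Uj x (J + 1) ∪ {y | 0 < 1 * (y J - x J)}) = Uj x (j + 1) := by
      rw [← union_inter_distrib_left]
      refine union_eq_left.2 fun y hy => ?_
      have h1 : 0 < -1 * (y J - x J) := hy.1
      have h2 : 0 < 1 * (y J - x J) := hy.2
      linarith
    have e2 : (Uj x (J + 1) ∪ {y | 0 < -1 * (y J - x J)}) ∪
        (Uj x (J + 1) ∪ {y | 0 < 1 * (y J - x J)}) = Uj x j := by
      ext y
      constructor
      · have h1 : y ∈ Uj x (J + 1) → y ∈ Uj x j := fun ⟨i, hi, h⟩ =>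
          ⟨i, le_trans (Nat.le_succ j) hi, h⟩
        have h2 : ∀ s : ℝ, 0 < s * (y J - x J) → y ∈ Uj x j := fun s hs =>
          ⟨J, le_rfl, fun h => by rw [h, sub_self, mul_zero] at hs; exact lt_irrefl _ hs⟩
        rintro ((h | h) | (h | h))
        exacts [h1 h, h2 _ h, h1 h, h2 _ h]
      · rintro ⟨i, hi, h⟩
        rcases hi.eq_or_lt with h1 | h1
        · have : i = J := Fin.ext h1.symm
          subst this
          rcases lt_or_gt_of_ne h with h2 | h2
          · exact Or.inl (Or.inr (show 0 < -1 * (y J - x J) by linarith))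
          · exact Or.inr (Or.inr (show 0 < 1 * (y J - x J) by linarith))
        · exact Or.inl (Or.inl ⟨i, h1, h⟩)
    have hεβ := mul_pos hε hβ
    have v1 : ((1 : Fin (k + 2)) : ℕ) = 1 := rfl
    have hJ : ∀ t, σ t J = x J + ε * (t 1 - β) := fun t => hσ t J 1 rfl le_rfl
    have hi : ∀ t (a : Fin k), σ t ∉ Uj x (J + 1) → t a.succ.succ = β := fun t a h => by
      have ha := a.2
      by_contra hne
      refine h ⟨⟨j + 1 + a, by omega⟩, Nat.le_add_right _ _, fun e => hne ?_⟩
      rw [hσ t _ a.succ.succ (by simp only [Fin.val_succ]; omega) (by simp only; omega),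
        add_eq_left] at e
      exact sub_eq_zero.1 ((mul_eq_zero.1 e).resolve_left hε.ne')
    rw [← e2]
    refine pg_step (ho (-1)) (ho 1) (hz_half x J (-1) (by norm_num) _)
      (hz_half x J 1 one_ne_zero _) (s' := -Finsupp.single (σ.comp (face (k + 1) 1)) 1)
      (w := ∑ i ∈ Finset.univ.erase 1,
        Finsupp.single (σ.comp (face (k + 1) i)) (1 * (-1 : ℤ) ^ (i : ℕ))) ?_ ?_ ?_ ?_
    · rw [bR_int, bd_single, ← Finset.add_sum_erase _ _ (Finset.mem_univ 1), v1, pow_one,
        one_mul, Finsupp.single_neg]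
    · refine neg_mem (Finsupp.single_mem_supported _ _ fun t => Or.inr ?_)
      change 0 < -1 * (σ (face (k + 1) 1 t) J - x J)
      rw [hJ, FM.face_self]
      linarith
    · refine Submodule.sum_mem _ fun i hi1 => Finsupp.single_mem_supported _ _ fun t => ?_
      change σ (face (k + 1) i t) ∈ _
      have h0 := FM.face_self i t
      generalize face (k + 1) i t = u at h0
      refine or_iff_not_imp_left.2 fun h => ?_
      change 0 < 1 * (σ u J - x J)
      have h4 : ∑ a, u a = 1 := u.2.2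
      rw [Fin.sum_univ_succ, Fin.sum_univ_succ, Finset.sum_congr rfl fun a _ => hi u a h,
        Finset.sum_const, Finset.card_univ, Fintype.card_fin, nsmul_eq_mul,
        Fin.succ_zero_eq_one] at h4
      have h5 : ((k : ℝ) + 1) * β ≤ n * β :=
        mul_le_mul_of_nonneg_right (by exact_mod_cast (show k + 1 ≤ n by omega)) hβ.le
      induction i using Fin.cases with
      | zero =>
        rw [hJ, add_sub_cancel_left, one_mul]
        exact mul_pos hε (by linarith)
      | succ i =>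
        induction i using Fin.cases with
        | zero => exact absurd rfl (Finset.mem_erase.1 hi1).1
        | succ i => exact absurd ((hi u i h).symm.trans h0) hβ.ne'
    · rw [e1]
      refine (ih (j + 1) (by omega) _ fun t i a h1 h2 => ?_).neg
      have h3 : (1 : Fin (k + 2)).succAbove a = a.succ :=
        Fin.succAbove_of_le_castSucc _ _ (by rw [Fin.le_def, v1, Fin.val_castSucc]; omega)
      rw [ContinuousMap.comp_apply, hσ _ i a.succ (by rw [Fin.val_succ]; omega) (by omega), ← h3,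
        FM.face_succAbove]

theorem eucGen (m : ℕ) (x : E (m + 1)) (ε : ℝ) (hε : 0 < ε) (σ : C(Dl (m + 2), E (m + 1)))
    (hσ : ∀ t, σ t = x + ε • td (bc m) t) :
    (∀ y : C ℤ (m + 1) (E (m + 1)), bR m y ∈ Cn ℤ ({x}ᶜ : Set (E (m + 1))) m →
      ∃ a : ℤ, Nl {x}ᶜ (m + 1) (y - a • Finsupp.single σ 1)) ∧
    ∀ a : ℤ, Nl ({x}ᶜ : Set (E (m + 1))) (m + 1) (a • Finsupp.single σ (1 : ℤ)) → a = 0 := by
  have : Uj x 0 = {x}ᶜ := by
    ext y
    simp only [Uj, zero_le, true_and, mem_ofPred_eq, mem_compl_iff, mem_singleton_iff, funext_iff,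
      not_forall]
  rw [← this]
  refine pg_Uj x hε (β := ((m : ℝ) + 2)⁻¹) (by positivity) ?_ (m + 1) 0 (zero_add _) σ
    fun t i a h _ => ?_
  · rw [← div_eq_mul_inv, div_lt_one (by positivity)]
    push_cast
    linarith
  · obtain rfl : a = i.succ := Fin.ext (by rw [Fin.val_succ]; omega)
    rw [hσ]
    rfl

end Vale.Agent.N223Y

end
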